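import Vale.Agent.P141.PL.H314.NodeWalk
import Vale.Agent.P141.PL.Defs1

/-!
# P141: the box form `loc` and the one-dimensional form `loc1`
-/

namespace Vale.Agent.P141.PL.H314

open Finset Vale.Agent.P141.PL.H620

noncomputable section

theorem sum_iv (k : ℕ) (m : ℤ) (φ : ℤ → ℝ) :
    ∑ x ∈ iv k m, φ x = ∑ i ∈ range (2 ^ k), φ (2 ^ k * m + i) := by
  symm
  refine sum_bij' (fun (i : ℕ) _ => (2 ^ k * m + i : ℤ)) (fun (x : ℤ) _ => (x - 2 ^ k * m).toNat)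
    ?_ ?_ ?_ ?_ ?_
  · intro i hi
    rw [mem_range] at hi
    unfold iv
    rw [mem_Ico]
    have : ((i : ℕ) : ℤ) < ((2 ^ k : ℕ) : ℤ) := by exact_mod_cast hi
    push_cast at this
    constructor <;> linarith [Int.natCast_nonneg i]
  · intro x hx
    unfold iv at hx
    rw [mem_Ico] at hx
    rw [mem_range]
    have h1 : (x - 2 ^ k * m) < ((2 ^ k : ℕ) : ℤ) := by push_cast; linarith
    omega
  · intro i _
    simp
  · intro x hx
    unfold iv at hx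
    rw [mem_Ico] at hx
    rw [Int.toNat_of_nonneg (by linarith)]
    ring
  · intro i _
    rfl

theorem sum_pts (k : ℕ) (Φ : (Fin 4 → ℕ) → ℝ) :
    ∑ x ∈ pts k, Φ x = ∑ a ∈ range (2 ^ k), ∑ b ∈ range (2 ^ k), ∑ c ∈ range (2 ^ k),
      ∑ d ∈ range (2 ^ k), Φ ![a, b, c, d] := by
  have h : ∑ x ∈ pts k, Φ x = ∑ p ∈ range (2 ^ k) ×ˢ range (2 ^ k) ×ˢ range (2 ^ k) ×ˢ
      range (2 ^ k), Φ ![p.1, p.2.1, p.2.2.1, p.2.2.2] := by
    refine sum_bij' (fun x _ => (x 0, x 1, x 2, x 3))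
      (fun p _ => ![p.1, p.2.1, p.2.2.1, p.2.2.2]) ?_ ?_ ?_ ?_ ?_
    · intro x hx
      unfold pts at hx
      rw [Fintype.mem_piFinset] at hx
      simp only [mem_product]
      exact ⟨hx 0, hx 1, hx 2, hx 3⟩
    · intro p hp
      simp only [mem_product] at hp
      unfold pts
      rw [Fintype.mem_piFinset]
      intro i
      fin_cases i
      · exact hp.1
      · exact hp.2.1
      · exact hp.2.2.1
      · exact hp.2.2.2
    · intro x _
      funext i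
      fin_cases i <;> rfl
    · intro p _
      rfl
    · intro x _
      congr 1
      funext i
      fin_cases i <;> rfl
  rw [h, sum_product]
  refine sum_congr rfl fun a _ => ?_
  rw [sum_product]
  refine sum_congr rfl fun b _ => ?_
  rw [sum_product]

theorem hs_eq_sg {k : ℕ} (hk : 1 ≤ k) (m : ℤ) {i : ℕ} (hi : i < 2 ^ k) :
    hs k (2 ^ k * m + i) = sg k i := by
  obtain ⟨l, rfl⟩ : ∃ l, k = l + 1 := ⟨k - 1, by omega⟩
  unfold hs sg ix
  rw [Nat.add_sub_cancel]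
  have h2 : (0 : ℤ) < 2 ^ l := by positivity
  have e1 : (2 ^ (l + 1) * m + (i : ℤ)) / 2 ^ l = 2 * m + (i : ℤ) / 2 ^ l := by
    rw [show (2 ^ (l + 1) * m + (i : ℤ) : ℤ) = i + (2 * m) * 2 ^ l by ring,
      Int.add_mul_ediv_right _ _ h2.ne']
    ring
  rw [e1]
  have e2 : (2 * m + (i : ℤ) / 2 ^ l) % 2 = ((i : ℤ) / 2 ^ l) % 2 := by omega
  rw [e2]
  have e3 : ((i : ℤ) / 2 ^ l) = ((i / 2 ^ l : ℕ) : ℤ) := by push_cast; rfl
  rw [e3]
  by_cases h : i < 2 ^ l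
  · rw [Nat.div_eq_of_lt h]
    rw [if_pos (by norm_num), if_pos (by rw [pow_succ]; omega)]
  · have h4 : i / 2 ^ l = 1 := by
      rw [Nat.div_eq_iff (by positivity)]
      rw [pow_succ] at hi
      constructor <;> omega
    rw [h4, if_neg (by norm_num), if_neg (by rw [pow_succ]; omega)]

/-- **The bridge.** -/
theorem loc1_eq {k : ℕ} (hk : 1 ≤ k) (n : Fin 4 → ℤ) (f : Fin 4 → ℤ → ℝ) :
    loc1 k n f = ((2 : ℝ) ^ k)⁻¹ * loc k (n 0, n 1, n 2, n 3) (lift 0 (f 0)) (lift 1 (f 1))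
      (lift 2 (f 2)) (lift 3 (f 3)) := by
  unfold loc1 loc
  congr 1
  rw [sum_pts, sum_iv]
  refine sum_congr rfl fun a ha => ?_
  rw [sum_iv]
  refine sum_congr rfl fun b hb => ?_
  rw [sum_iv]
  refine sum_congr rfl fun c hc => ?_
  rw [sum_iv]
  refine sum_congr rfl fun d hd => ?_
  rw [mem_range] at ha hb hc hd
  rw [hs_eq_sg hk _ ha, hs_eq_sg hk _ hb, hs_eq_sg hk _ hc, hs_eq_sg hk _ hd]
  rw [Fin.prod_univ_four, Fin.prod_univ_four]
  have l0 : ell 0 (pt k n ![a, b, c, d]) =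
      el (fc 0) (2 ^ k * n 1 + (b : ℤ), 2 ^ k * n 2 + (c : ℤ), 2 ^ k * n 3 + (d : ℤ)) := by
    simp [ell, pt, el, fc, Fin.sum_univ_four]; try ring
  have l1 : ell 1 (pt k n ![a, b, c, d]) =
      el (fc 1) (2 ^ k * n 0 + (a : ℤ), 2 ^ k * n 2 + (c : ℤ), 2 ^ k * n 3 + (d : ℤ)) := by
    simp [ell, pt, el, fc, Fin.sum_univ_four]; try ring
  have l2 : ell 2 (pt k n ![a, b, c, d]) =
      el (fc 2) (2 ^ k * n 0 + (a : ℤ), 2 ^ k * n 1 + (b : ℤ), 2 ^ k * n 3 + (d : ℤ)) := by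
    simp [ell, pt, el, fc, Fin.sum_univ_four]; try ring
  have l3 : ell 3 (pt k n ![a, b, c, d]) =
      el (fc 3) (2 ^ k * n 0 + (a : ℤ), 2 ^ k * n 1 + (b : ℤ), 2 ^ k * n 2 + (c : ℤ)) := by
    simp [ell, pt, el, fc, Fin.sum_univ_four]; try ring
  rw [l0, l1, l2, l3]
  unfold prd lift
  simp only [Matrix.cons_val_zero, Matrix.cons_val_one, Matrix.cons_val]

/-- The node form as a box form. -/
theorem nd_eq {k : ℕ} (hk : 1 ≤ k) (o v : ℤ) (f : Fin 4 → ℤ → ℝ) :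
    nd o k v f = ((8 : ℝ) ^ k)⁻¹ * loc k (o - 2 - v, v, 0, 0) (lift 0 (f 0)) (lift 1 (f 1))
      (lift 2 (f 2)) (lift 3 (f 3)) := by
  unfold nd
  rw [loc1_eq hk]
  have e : (nn o v 0 0 0, nn o v 0 0 1, nn o v 0 0 2, nn o v 0 0 3) =
      ((o - 2 - v, v, 0, 0) : Bx) := by
    simp [nn]
  rw [e, ← mul_assoc, ← mul_inv, ← mul_pow]
  norm_num

end

end Vale.Agent.P141.PL.H314
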