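import Vale.Agent.P141.PL.H620.Disc
import Vale.Agent.P141.PL.H315.Walk

/-!
# P141, block B7: the walk over the levels at the nodes of the one-dimensional form
-/

namespace Vale.Agent.P141.PL.H314

open Finset Vale.Agent.P141.PL.H620

noncomputable section

/-- The node form: `2 ^ k` times an average. -/
def nd (o : ℤ) (k : ℕ) (v : ℤ) (f : Fin 4 → ℤ → ℝ) : ℝ := ((4 : ℝ) ^ k)⁻¹ * loc1 k (nn o v 0 0) f

/-- The window of a node. -/
def Win (k : ℕ) (v : ℤ) : Finset ℤ := Ico (2 ^ k * (v - 16)) (2 ^ k * (v + 16))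

theorem ell_mem_Win {o : ℤ} (ho : o = 1 ∨ o = -1) {k : ℕ} {v : ℤ} {x : Fin 4 → ℕ}
    (hx : x ∈ pts k) (a b : ℤ) (j : Fin 4) : ell j (pt k (nn o v a b) x) ∈ Win k v := by
  rw [ell_nn]
  unfold pts at hx
  rw [Fintype.mem_piFinset] at hx
  have h2 : (1 : ℤ) ≤ 2 ^ k := by exact_mod_cast Nat.one_le_two_pow
  have hx' : ∀ i, (0 : ℤ) ≤ x i ∧ (x i : ℤ) ≤ 2 ^ k - 1 := by
    intro i
    have := hx i
    rw [mem_range] at this
    have h3 : ((x i : ℕ) : ℤ) < ((2 ^ k : ℕ) : ℤ) := by exact_mod_cast this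
    push_cast at h3
    exact ⟨by positivity, by linarith⟩
  unfold Win
  rw [mem_Ico]
  have h0 := hx' 0
  have h1 := hx' 1
  have h3 := hx' 2
  have h4 := hx' 3
  simp only [mo, uu, Fin.sum_univ_four]
  generalize hA : (2 : ℤ) ^ k = A at *
  generalize (x 0 : ℤ) = x0 at *
  generalize (x 1 : ℤ) = x1 at *
  generalize (x 2 : ℤ) = x2 at *
  generalize (x 3 : ℤ) = x3 at *
  have e0 : ((0 : Fin 4) : ℕ) = 0 := rfl
  have e1 : ((1 : Fin 4) : ℕ) = 1 := rfl
  have e2 : ((2 : Fin 4) : ℕ) = 2 := rfl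
  have e3 : ((3 : Fin 4) : ℕ) = 3 := rfl
  rw [e0, e1, e2, e3]
  fin_cases j <;> rcases ho with rfl | rfl <;> simp <;> constructor <;> nlinarith

theorem nd_congr {o : ℤ} (ho : o = 1 ∨ o = -1) {k : ℕ} {v : ℤ} {f g : Fin 4 → ℤ → ℝ}
    (h : ∀ j, ∀ y ∈ Win k v, f j y = g j y) : nd o k v f = nd o k v g := by
  unfold nd loc1
  congr 2
  refine sum_congr rfl fun x hx => ?_
  congr 1
  exact prod_congr rfl fun j _ => h j _ (ell_mem_Win ho hx 0 0 j)

theorem vecCons4 (a b c d : ℤ → ℝ) (F : Fin 4 → ℤ) :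
    ∏ j, (![a, b, c, d] : Fin 4 → ℤ → ℝ) j (F j) = a (F 0) * b (F 1) * c (F 2) * d (F 3) := by
  rw [Fin.prod_univ_four]
  rfl

theorem nd_add4 (o : ℤ) (k : ℕ) (v : ℤ) :
    H315.Add4 (fun a b c d : ℤ → ℝ => nd o k v ![a, b, c, d]) := by
  constructor <;> intros <;> simp only [nd, loc1, vecCons4, Pi.sub_apply] <;>
    rw [← mul_sub, ← mul_sub, ← sum_sub_distrib] <;> congr 2 <;>
    exact sum_congr rfl fun x _ => by ring

/-- The functions of a role: player `i` is structured (`f i - g i`), the others are uniform; the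
levels of the players are `a`, the scale is `k`. -/
def role (f : Fin 4 → ℤ → ℝ) (g : Fin 4 → ℕ → ℕ → ℤ → ℝ) (i : Fin 4) (a : Fin 4 → ℕ) (k : ℕ) :
    Fin 4 → ℤ → ℝ := fun j => if j = i then f j - g j (a j) k else g j (a j) k

/-- **The walk.**  `g j m k` is the uniform part of the player `j` at the level `m` and the scale
`k`; at the level `0` nothing has been taken off.  If every role sum is at most `X` and the final
remainder is at most `Y` then the sum of the node forms is at most `Y + (8 M + 1) X`. -/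
theorem node_walk {o : ℤ} (ho : o = 1 ∨ o = -1) (S : Finset (ℕ × ℤ)) (f : Fin 4 → ℤ → ℝ)
    (g : Fin 4 → ℕ → ℕ → ℤ → ℝ) (M : ℕ) {X Y : ℝ}
    (h0 : ∀ s ∈ S, ∀ j, ∀ y ∈ Win s.1 s.2, g j 0 s.1 y = f j y)
    (hX : ∀ i : Fin 4, ∀ a : Fin 4 → ℕ, (∀ j, a j ≤ M) → (∀ j l, a j ≤ a l + 1) →
      ∑ s ∈ S, |nd o s.1 s.2 (role f g i a s.1)| ≤ X)
    (hY : ∑ s ∈ S, |nd o s.1 s.2 ![g 0 M s.1, g 1 M s.1, g 2 M s.1, f 3]| ≤ Y) :
    ∑ s ∈ S, |nd o s.1 s.2 f| ≤ Y + (8 * M + 1) * X := by
  -- the pointwise walk with `f` replaced by the level `0` functions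
  have key : ∀ s ∈ S, |nd o s.1 s.2 f| ≤
      |nd o s.1 s.2 ![g 0 M s.1, g 1 M s.1, g 2 M s.1, f 3]| +
      |nd o s.1 s.2 (role f g 3 ![M, M, M, M] s.1)| +
      ∑ m ∈ range M,
        ((|nd o s.1 s.2 (role f g 0 ![m + 1, m, m, m] s.1)| +
            |nd o s.1 s.2 (role f g 0 ![m, m, m, m] s.1)|) +
          (|nd o s.1 s.2 (role f g 1 ![m + 1, m + 1, m, m] s.1)| +
            |nd o s.1 s.2 (role f g 1 ![m + 1, m, m, m] s.1)|) +
          (|nd o s.1 s.2 (role f g 2 ![m + 1, m + 1, m + 1, m] s.1)| +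
            |nd o s.1 s.2 (role f g 2 ![m + 1, m + 1, m, m] s.1)|) +
          (|nd o s.1 s.2 (role f g 3 ![m + 1, m + 1, m + 1, m + 1] s.1)| +
            |nd o s.1 s.2 (role f g 3 ![m + 1, m + 1, m + 1, m] s.1)|)) := by
    intro s hs
    -- all functions agree with those of the walk on the window
    set W := Win s.1 s.2 with hW
    set G : Fin 4 → ℕ → ℤ → ℝ := fun j m => if m = 0 then f j else g j m s.1 with hG
    have hGg : ∀ j m, ∀ y ∈ W, G j m y = g j m s.1 y := by
      intro j m y hy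
      by_cases hm : m = 0
      · subst hm
        simp only [hG, if_true]
        exact (h0 s hs j y hy).symm
      · simp only [hG, if_neg hm]
    have hw := H315.walk_le (nd_add4 o s.1 s.2) (f 0) (f 1) (f 2) (f 3) (G 0) (G 1) (G 2) (G 3)
      (by simp [hG]) (by simp [hG]) (by simp [hG]) (by simp [hG]) M
    have hf : (![f 0, f 1, f 2, f 3] : Fin 4 → ℤ → ℝ) = f := by
      funext j; fin_cases j <;> rfl
    rw [hf] at hw
    have cg : ∀ (p q : Fin 4 → ℤ → ℝ), (∀ j, ∀ y ∈ W, p j y = q j y) →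
        nd o s.1 s.2 p = nd o s.1 s.2 q := fun p q h => nd_congr ho h
    have e3 : nd o s.1 s.2 ![G 0 M, G 1 M, G 2 M, f 3] =
        nd o s.1 s.2 ![g 0 M s.1, g 1 M s.1, g 2 M s.1, f 3] := by
      refine cg _ _ fun j y hy => ?_
      fin_cases j
      · exact hGg 0 M y hy
      · exact hGg 1 M y hy
      · exact hGg 2 M y hy
      · rfl
    have er : ∀ (i : Fin 4) (a : Fin 4 → ℕ) (p : Fin 4 → ℤ → ℝ),
        (∀ j, ∀ y ∈ W, p j y = if j = i then f j y - G j (a j) y else G j (a j) y) →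
        nd o s.1 s.2 p = nd o s.1 s.2 (role f g i a s.1) := by
      intro i a p hp
      refine cg _ _ fun j y hy => ?_
      rw [hp j y hy]
      unfold role
      split_ifs with hj
      · rw [Pi.sub_apply, hGg j _ y hy]
      · exact hGg j _ y hy
    have r0 : ∀ (a : Fin 4 → ℕ), nd o s.1 s.2 ![f 0 - G 0 (a 0), G 1 (a 1), G 2 (a 2), G 3 (a 3)] =
        nd o s.1 s.2 (role f g 0 a s.1) := by
      intro a
      refine er 0 a _ fun j y _ => ?_
      fin_cases j <;> simp
    have r1 : ∀ (a : Fin 4 → ℕ), nd o s.1 s.2 ![G 0 (a 0), f 1 - G 1 (a 1), G 2 (a 2), G 3 (a 3)] =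
        nd o s.1 s.2 (role f g 1 a s.1) := by
      intro a
      refine er 1 a _ fun j y _ => ?_
      fin_cases j <;> simp
    have r2 : ∀ (a : Fin 4 → ℕ), nd o s.1 s.2 ![G 0 (a 0), G 1 (a 1), f 2 - G 2 (a 2), G 3 (a 3)] =
        nd o s.1 s.2 (role f g 2 a s.1) := by
      intro a
      refine er 2 a _ fun j y _ => ?_
      fin_cases j <;> simp
    have r3 : ∀ (a : Fin 4 → ℕ), nd o s.1 s.2 ![G 0 (a 0), G 1 (a 1), G 2 (a 2), f 3 - G 3 (a 3)] =
        nd o s.1 s.2 (role f g 3 a s.1) := by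
      intro a
      refine er 3 a _ fun j y _ => ?_
      fin_cases j <;> simp
    refine hw.trans (le_of_eq ?_)
    rw [e3]
    congr 1
    · congr 2
      exact r3 ![M, M, M, M]
    · refine sum_congr rfl fun m _ => ?_
      have a1 := r0 ![m + 1, m, m, m]
      have a2 := r0 ![m, m, m, m]
      have a3 := r1 ![m + 1, m + 1, m, m]
      have a4 := r1 ![m + 1, m, m, m]
      have a5 := r2 ![m + 1, m + 1, m + 1, m]
      have a6 := r2 ![m + 1, m + 1, m, m]
      have a7 := r3 ![m + 1, m + 1, m + 1, m + 1]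
      have a8 := r3 ![m + 1, m + 1, m + 1, m]
      simp only [Matrix.cons_val_zero, Matrix.cons_val_one, Matrix.cons_val] at a1 a2 a3 a4 a5 a6 a7 a8
      rw [← a1, ← a2, ← a3, ← a4, ← a5, ← a6, ← a7, ← a8]
  have hr : ∀ (i : Fin 4) (p q r t : ℕ), p ≤ M → q ≤ M → r ≤ M → t ≤ M →
      (∀ j l, (![p, q, r, t] : Fin 4 → ℕ) j ≤ (![p, q, r, t] : Fin 4 → ℕ) l + 1) →
      ∑ s ∈ S, |nd o s.1 s.2 (role f g i ![p, q, r, t] s.1)| ≤ X := by
    intro i p q r t hp hq hr ht h
    refine hX i _ (fun j => ?_) h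
    fin_cases j <;> simp <;> assumption
  calc ∑ s ∈ S, |nd o s.1 s.2 f| ≤ _ := sum_le_sum key
    _ ≤ Y + X + ∑ m ∈ range M, 8 * X := by
      rw [sum_add_distrib, sum_add_distrib, sum_comm (s := S)]
      refine add_le_add (add_le_add hY ?_) (sum_le_sum fun m hm => ?_)
      · refine hr 3 M M M M le_rfl le_rfl le_rfl le_rfl fun j l => ?_
        fin_cases j <;> fin_cases l <;> simp
      · rw [mem_range] at hm
        simp only [sum_add_distrib]
        have b1 := hr 0 (m + 1) m m m (by omega) (by omega) (by omega) (by omega)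
          (fun j l => by fin_cases j <;> fin_cases l <;> simp <;> omega)
        have b2 := hr 0 m m m m (by omega) (by omega) (by omega) (by omega)
          (fun j l => by fin_cases j <;> fin_cases l <;> simp <;> omega)
        have b3 := hr 1 (m + 1) (m + 1) m m (by omega) (by omega) (by omega) (by omega)
          (fun j l => by fin_cases j <;> fin_cases l <;> simp <;> omega)
        have b4 := hr 1 (m + 1) m m m (by omega) (by omega) (by omega) (by omega)
          (fun j l => by fin_cases j <;> fin_cases l <;> simp <;> omega)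
        have b5 := hr 2 (m + 1) (m + 1) (m + 1) m (by omega) (by omega) (by omega) (by omega)
          (fun j l => by fin_cases j <;> fin_cases l <;> simp <;> omega)
        have b6 := hr 2 (m + 1) (m + 1) m m (by omega) (by omega) (by omega) (by omega)
          (fun j l => by fin_cases j <;> fin_cases l <;> simp <;> omega)
        have b7 := hr 3 (m + 1) (m + 1) (m + 1) (m + 1) (by omega) (by omega) (by omega) (by omega)
          (fun j l => by fin_cases j <;> fin_cases l <;> simp <;> omega)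
        have b8 := hr 3 (m + 1) (m + 1) (m + 1) m (by omega) (by omega) (by omega) (by omega)
          (fun j l => by fin_cases j <;> fin_cases l <;> simp <;> omega)
        linarith
    _ = Y + (8 * M + 1) * X := by
      rw [sum_const, card_range, nsmul_eq_mul]
      ring

end

end Vale.Agent.P141.PL.H314
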