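import Vale.Agent.P141.PL.H314.Bridge
import Vale.Agent.P141.PL.H317.RemExp

/-!
# P141: the final remainder at the nodes
-/

namespace Vale.Agent.P141.PL.H314

open Finset Vale.Agent.P141.PL.H620

noncomputable section

theorem iv_eq' (l : ℕ) (j : ℤ) : iv l j = H315.iv l (2 ^ l * j) := by
  unfold iv H315.iv
  rw [Int.mul_ediv_cancel_left _ (by positivity)]

/-- Uniformity of a companion in the number form on the cube of scale `l` with indices `m`. -/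
theorem Comp.unifN {n : ℕ} {e δ Λ : ℝ} (hδ : 0 ≤ δ) (he0 : 0 ≤ e) (he1 : e ≤ 1) {G : ℕ → Pt → ℝ}
    (h : Comp n e δ Λ G) {k l : ℕ} (hkl : k ≤ l) (hl : l ≤ n) (m : Pt) :
    H317.Unif δ e (iv l m.1) (iv l m.2.1) (iv l m.2.2) (fun x y z => G k (x, y, z)) := by
  obtain ⟨m1, m2, m3⟩ := m
  have hne : ∀ x : ℤ, (H315.iv l x).Nonempty := fun x => ⟨x, H315.self_mem_iv l x⟩
  simp only [iv_eq']
  refine H317.unif_of_avg hδ he0 he1 (hne _) (hne _) (hne _) fun u => ?_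
  have key := h.unif k l hkl hl (2 ^ l * m1, 2 ^ l * m2, 2 ^ l * m3) u
  unfold H315.wN at key
  rw [H315.Nm_e12, H315.Nm_e13, H315.Nm_e23] at key
  exact key

/-- **The remainder at one node**: the first function is uniform, the last one is bounded. -/
theorem rem_node {n : ℕ} {e δ Λ H B : ℝ} (he0 : 0 ≤ e) (he1 : e ≤ 1) (hδ : 0 ≤ δ) (hΛ : 0 ≤ Λ)
    (hH : 0 ≤ H) (hB : 0 < B) {g0 g1 g2 : ℕ → ℤ → ℝ} {f3 : ℤ → ℝ}
    (h0 : Comp n e δ Λ (fun k => lift 0 (g0 k))) (h1 : Comp n e δ Λ (fun k => lift 1 (g1 k)))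
    (h2 : Comp n e δ Λ (fun k => lift 2 (g2 k))) (hf : ∀ x, |f3 x| ≤ H) {k : ℕ} (hk1 : 1 ≤ k)
    (hk : k ≤ n) (o v : ℤ) :
    |nd o k v ![g0 k, g1 k, g2 k, f3]| ≤
      2 ^ k * (δ * H * (Λ ^ (1 - e) * B ^ (2 * e)) + 2 * H * Λ ^ 2 / B) := by
  have hr : H317.RemHyp k ((o - 2 - v, v, 0, 0) : Bx) δ e H Λ (lift 0 (g0 k)) (lift 1 (g1 k))
      (lift 2 (g2 k)) (lift 3 f3) := by
    refine ⟨?_, ?_, ?_, ?_, ?_, ?_⟩
    · exact Comp.unifN hδ he0 he1 h0 le_rfl hk (v, 0, 0)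
    · intro x2 _ x3 _
      exact h0.line1 k k le_rfl hk v x2 x3
    · intro x1 _ x3 _
      exact h0.line2 k k le_rfl hk x1 0 x3
    · intro x0 _ x3 _
      exact h1.line2 k k le_rfl hk x0 0 x3
    · intro x0 _ x3 _
      exact h2.line2 k k le_rfl hk x0 v x3
    · intro x0 _ x1 _ x2 _
      exact hf _
  have key := H317.loc_rem he0 he1 hH hΛ hB hr
  rw [nd_eq hk1]
  simp only [Matrix.cons_val_zero, Matrix.cons_val_one, Matrix.cons_val]
  rw [abs_mul, abs_of_pos (by positivity), inv_mul_le_iff₀ (by positivity), ← mul_assoc,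
    ← mul_pow]
  norm_num at key ⊢
  exact key

/-- The number of nodes of one scale below a root. -/
theorem card_nodes {K : ℕ} {V : ℤ} {S : Finset (ℕ × ℤ)}
    (hS : ∀ s ∈ S, 1 ≤ s.1 ∧ s.1 ≤ K ∧ s.2 / 2 ^ (K - s.1) = V) (k : ℕ) :
    ((S.filter fun s => s.1 = k).card : ℝ) ≤ 2 ^ (K - k) := by
  have h : (S.filter fun s => s.1 = k).card ≤ (iv (K - k) V).card := by
    refine card_le_card_of_injOn (fun s => s.2) ?_ ?_
    · intro s hs
      rw [mem_coe, mem_filter] at hs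
      obtain ⟨hs, rfl⟩ := hs
      rw [mem_coe, mem_iv]
      exact (hS s hs).2.2
    · intro s hs t ht hst
      rw [mem_coe, mem_filter] at hs ht
      exact Prod.ext (hs.2.trans ht.2.symm) hst
  rw [card_iv] at h
  exact_mod_cast h

/-- The total length of the nodes below a root. -/
theorem sum_nodes {K : ℕ} {V : ℤ} {S : Finset (ℕ × ℤ)}
    (hS : ∀ s ∈ S, 1 ≤ s.1 ∧ s.1 ≤ K ∧ s.2 / 2 ^ (K - s.1) = V) :
    ∑ s ∈ S, (2 : ℝ) ^ s.1 ≤ K * 2 ^ K := by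
  have h1 : ∑ s ∈ S, (2 : ℝ) ^ s.1 = ∑ k ∈ Icc 1 K, ∑ s ∈ S.filter (fun s => s.1 = k),
      (2 : ℝ) ^ s.1 := by
    rw [sum_fiberwise_of_maps_to]
    intro s hs
    rw [mem_Icc]
    exact ⟨(hS s hs).1, (hS s hs).2.1⟩
  rw [h1]
  calc _ ≤ ∑ k ∈ Icc 1 K, (2 : ℝ) ^ K := by
        refine sum_le_sum fun k hk => ?_
        rw [mem_Icc] at hk
        calc ∑ s ∈ S.filter (fun s => s.1 = k), (2 : ℝ) ^ s.1
            = (S.filter fun s => s.1 = k).card * 2 ^ k := by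
              rw [sum_congr rfl (g := fun _ => (2 : ℝ) ^ k)
                (fun s hs => by rw [(mem_filter.mp hs).2]), sum_const, nsmul_eq_mul]
          _ ≤ 2 ^ (K - k) * 2 ^ k := by
              gcongr
              exact card_nodes hS k
          _ = 2 ^ K := by rw [← pow_add]; congr 1; omega
    _ = K * 2 ^ K := by
        rw [sum_const, nsmul_eq_mul, Nat.card_Icc]
        simp

theorem ee_pos (n : ℕ) : 0 < ee n := by
  unfold ee
  have := Real.log_natCast_nonneg n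
  positivity

theorem ee_le (n : ℕ) : ee n ≤ 1 / 2 := by
  unfold ee
  have h := Real.log_natCast_nonneg n
  rw [one_div]
  exact inv_anti₀ (by norm_num) (by linarith)

/-- powers of `n` to the exponent `ee n` are bounded -/
theorem pow_ee (n : ℕ) (hn : 1 ≤ n) (c : ℕ) : ((n : ℝ) ^ c) ^ (2 * ee n) ≤ 9 ^ c := by
  have hn0 : (0 : ℝ) < n := by exact_mod_cast hn
  have h1 : ((n : ℝ) ^ c) ^ (2 * ee n) = (Real.exp (2 * (Real.log n * ee n))) ^ c := by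
    rw [← Real.rpow_natCast, ← Real.rpow_mul hn0.le, mul_comm (c : ℝ), Real.rpow_mul hn0.le,
      Real.rpow_natCast]
    congr 1
    rw [Real.rpow_def_of_pos hn0]
    congr 1
    ring
  rw [h1]
  have h2 : Real.log n * ee n ≤ 1 := by
    unfold ee
    have h := Real.log_natCast_nonneg n
    rw [← div_eq_mul_inv, div_le_one (by linarith)]
    linarith
  have h3 : Real.exp (2 * (Real.log n * ee n)) ≤ 9 := by
    calc Real.exp (2 * (Real.log n * ee n)) ≤ Real.exp (2 * 1) :=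
          Real.exp_le_exp.mpr (by linarith)
      _ = Real.exp 1 ^ 2 := by rw [← Real.exp_nat_mul]; norm_num
      _ ≤ 3 ^ 2 := by
          have := Real.exp_one_lt_d9
          gcongr
          linarith
      _ = 9 := by norm_num
  exact pow_le_pow_left₀ (Real.exp_pos _).le h3 c

/-- **The sum of the remainders of a root.** -/
theorem rem_sum {n K : ℕ} (hn : 1 ≤ n) (hK : K ≤ n) {V : ℤ} {δ Λ : ℝ} (hδ : 0 ≤ δ)
    (hδ' : δ * (n : ℝ) ^ 3 ≤ 1) (hΛ : 1 ≤ Λ) {g0 g1 g2 : ℕ → ℤ → ℝ} {f3 : ℤ → ℝ}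
    (h0 : Comp n (ee n) δ Λ (fun k => lift 0 (g0 k)))
    (h1 : Comp n (ee n) δ Λ (fun k => lift 1 (g1 k)))
    (h2 : Comp n (ee n) δ Λ (fun k => lift 2 (g2 k))) (hf : ∀ x, |f3 x| ≤ (n : ℝ) ^ 2) (o : ℤ)
    {S : Finset (ℕ × ℤ)} (hS : ∀ s ∈ S, 1 ≤ s.1 ∧ s.1 ≤ K ∧ s.2 / 2 ^ (K - s.1) = V) :
    ∑ s ∈ S, |nd o s.1 s.2 ![g0 s.1, g1 s.1, g2 s.1, f3]| ≤ 731 * Λ ^ 2 * 2 ^ K := by
  have hn1 : (1 : ℝ) ≤ n := by exact_mod_cast hn
  have hn0 : (0 : ℝ) < n := by linarith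
  set c : ℝ := 731 * Λ ^ 2 / n with hc
  have hnode : ∀ s ∈ S, |nd o s.1 s.2 ![g0 s.1, g1 s.1, g2 s.1, f3]| ≤ 2 ^ s.1 * c := by
    intro s hs
    have hs' := hS s hs
    refine (rem_node (B := (n : ℝ) ^ 3) (ee_pos n).le ((ee_le n).trans (by norm_num)) hδ
      (by linarith) (by positivity) (by positivity) h0 h1 h2 hf hs'.1 (hs'.2.1.trans hK) o
      s.2).trans ?_
    refine mul_le_mul_of_nonneg_left ?_ (by positivity)
    have e1 : Λ ^ (1 - ee n) ≤ Λ ^ 2 := by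
      have h1 := ee_pos n
      calc Λ ^ (1 - ee n) ≤ Λ ^ (2 : ℝ) := Real.rpow_le_rpow_of_exponent_le hΛ (by linarith)
        _ = Λ ^ 2 := by exact_mod_cast Real.rpow_natCast Λ 2
    have e2 := pow_ee n hn 3
    have e3 : δ * (n : ℝ) ^ 2 ≤ 1 / n := by
      rw [le_div_iff₀ hn0]
      calc δ * (n : ℝ) ^ 2 * n = δ * (n : ℝ) ^ 3 := by ring
        _ ≤ 1 := hδ'
    calc δ * (n : ℝ) ^ 2 * (Λ ^ (1 - ee n) * ((n : ℝ) ^ 3) ^ (2 * ee n)) +
          2 * (n : ℝ) ^ 2 * Λ ^ 2 / (n : ℝ) ^ 3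
        ≤ 1 / n * (Λ ^ 2 * 9 ^ 3) + 2 * Λ ^ 2 / n := by
          refine add_le_add ?_ (le_of_eq ?_)
          · exact mul_le_mul e3 (mul_le_mul e1 e2 (by positivity) (by positivity))
              (by positivity) (by positivity)
          · field_simp
      _ = c := by rw [hc]; ring
  calc _ ≤ ∑ s ∈ S, (2 : ℝ) ^ s.1 * c := sum_le_sum hnode
    _ = (∑ s ∈ S, (2 : ℝ) ^ s.1) * c := by rw [sum_mul]
    _ ≤ (K * 2 ^ K) * c := by
        refine mul_le_mul_of_nonneg_right (sum_nodes hS) (by positivity)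
    _ ≤ (n * 2 ^ K) * c := by
        gcongr
    _ = 731 * Λ ^ 2 * 2 ^ K := by
        rw [hc]; field_simp

end

end Vale.Agent.P141.PL.H314
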